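import Vale.Agent.P209.Asymp.Core
import Vale.Agent.P209.Asymp.Count
import Vale.Agent.P209.Asymp.Pieces
import Vale.Agent.P209.Asymp.BoxFill
import Vale.Agent.P209.Asymp.Exp
import Vale.Agent.P209.Asymp.Uniform

/-!
P209: sufficiency in Siegel and Yao's Conjecture A in high dimensions, for every number of balls,
up to an exponentially small volume defect, and in every dimension up to one absolute constant.
-/

open Vale.Agent.P209 Asymp in
theorem Vale.Agent.Results.P209.HighDimensions.result : HighDimSufficiency ∧ VolumeExponential ∧
    UniformConstant :=
  have hmv : MoveGenStmt := moveGenStmt_of_core coreGenStmt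
  have hexp := volumeExponential mergeStmt hmv pieceStmt (boxFillStmt_of_move hmv)
  ⟨highDimSufficiency mergeStmt (pushStmt_of_move hmv.move), hexp, uniformConstant_of_volume hexp⟩
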