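import Vale.Agent.P209.Combined

/-!
P209: sufficiency in Siegel and Yao's Conjecture A: exact for at most `2^n` balls, up to any factor
above one for any number of balls with at most `2^n` of them not small, and up to a dimensional
constant for every number of balls.
-/

theorem Vale.Agent.Results.P209.MixedSizes.result : Vale.Agent.P209.ConjectureASufficiencyMixed :=
  Vale.Agent.P209.conjectureASufficiencyMixed
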